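import Vale.Agent.P083.H731.Seq
import Mathlib.Analysis.CStarAlgebra.ContinuousFunctionalCalculus.Isometric

/-!
# P083 / H731 : non-unital asymptotic homomorphisms into a sequence, by corners
-/

set_option autoImplicit false
set_option linter.all false

open Filter Topology
open scoped ENNReal InnerProductSpace ComplexConjugate

namespace Vale.Agent.P083X

open Vale.Agent.P083 Vale.Agent.P083N

/-- a projection near an almost idempotent self-adjoint element -/
theorem proj_near {D : Type} [CStarAlgebra D] {s : D} (hs : IsSelfAdjoint s)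
    (h : ‖s * s - s‖ ≤ 1 / 8) :
    ∃ p : D, star p = p ∧ p * p = p ∧ ‖p - s‖ ≤ 2 * ‖s * s - s‖ := by
  set ε := ‖s * s - s‖ with hε
  let f : ℝ → ℝ := fun t => max 0 (min 1 (2 * t - 1 / 2))
  have hf : Continuous f := by fun_prop
  have hsp : ∀ t ∈ spectrum ℝ s, |t * t - t| ≤ ε := by
    intro t ht
    have h1 : cfc (fun t : ℝ => t * t - t) s = s * s - s := by
      rw [cfc_sub (fun t : ℝ => t * t) (fun t : ℝ => t) s (by fun_prop) (by fun_prop),
        cfc_mul (fun t : ℝ => t) (fun t : ℝ => t) s (by fun_prop) (by fun_prop), cfc_id' ℝ s hs]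
    have h2 := norm_apply_le_norm_cfc (fun t : ℝ => t * t - t) s ht (by fun_prop) hs
    rw [h1] at h2
    exact h2
  have hval : ∀ t ∈ spectrum ℝ s, f t * f t = f t ∧ |f t - t| ≤ 2 * ε := by
    intro t ht
    have h1 := abs_le.1 (hsp t ht)
    have h0 : 0 ≤ ε := norm_nonneg _
    rcases le_total t (1 / 2) with h2 | h2
    · have h3 : |t| ≤ 2 * ε := by
        rw [abs_le]
        constructor <;> nlinarith
      have h4 := abs_le.1 h3
      have h5 : f t = 0 := by
        show max 0 (min 1 (2 * t - 1 / 2)) = 0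
        apply max_eq_left
        exact (min_le_right _ _).trans (by linarith)
      rw [h5]
      refine ⟨by ring, ?_⟩
      rw [zero_sub, abs_neg]
      exact h3
    · have h3 : |1 - t| ≤ 2 * ε := by
        rw [abs_le]
        constructor <;> nlinarith
      have h4 := abs_le.1 h3
      have h5 : f t = 1 := by
        show max 0 (min 1 (2 * t - 1 / 2)) = 1
        rw [min_eq_left (by linarith)]
        norm_num
      rw [h5]
      exact ⟨by ring, h3⟩
  refine ⟨cfc f s, ?_, ?_, ?_⟩
  · exact (cfc_predicate f s).star_eq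
  · rw [← cfc_mul f f s (by fun_prop) (by fun_prop)]
    exact cfc_congr fun t ht => (hval t ht).1
  · have h1 : cfc f s - s = cfc (fun t : ℝ => f t - t) s := by
      rw [cfc_sub f (fun t : ℝ => t) s (by fun_prop) (by fun_prop), cfc_id' ℝ s hs]
    rw [h1]
    refine norm_cfc_le (by positivity) fun t ht => ?_
    exact (hval t ht).2

section corner

variable {K : Type} [NormedAddCommGroup K] [InnerProductSpace ℂ K] [CompleteSpace K]

/-- the range of a projection -/
def rg (p : K →L[ℂ] K) : Submodule ℂ K := LinearMap.ker ((1 - p : K →L[ℂ] K) : K →ₗ[ℂ] K)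

theorem mem_rg {p : K →L[ℂ] K} {x : K} : x ∈ rg p ↔ p x = x := by
  rw [rg, LinearMap.mem_ker]
  show x - p x = 0 ↔ _
  rw [sub_eq_zero, eq_comm]

instance rg_complete (p : K →L[ℂ] K) : CompleteSpace (rg p) := by
  have h : IsClosed ((rg p : Submodule ℂ K) : Set K) :=
    ContinuousLinearMap.isClosed_ker (1 - p : K →L[ℂ] K)
  exact h.completeSpace_coe

/-- compression to the range of a projection -/
noncomputable def cmp (p : K →L[ℂ] K) (T : K →L[ℂ] K) : rg p →L[ℂ] rg p :=
  (ContinuousLinearMap.adjoint (rg p).subtypeL) ∘L T ∘L (rg p).subtypeL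

variable {p : K →L[ℂ] K}

theorem adj_sub (h1 : star p = p) (h2 : p * p = p) (x : K) :
    ((ContinuousLinearMap.adjoint (rg p).subtypeL x : rg p) : K) = p x := by
  have hm : p x ∈ rg p := mem_rg.2 (by
    show (p * p) x = p x
    rw [h2])
  have h3 : ContinuousLinearMap.adjoint (rg p).subtypeL x = ⟨p x, hm⟩ := by
    refine ext_inner_right ℂ fun w => ?_
    rw [ContinuousLinearMap.adjoint_inner_left]
    show ⟪x, (w : K)⟫_ℂ = ⟪p x, (w : K)⟫_ℂ
    have h4 : p (w : K) = w := mem_rg.1 w.2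
    have h5 : ContinuousLinearMap.adjoint p = p := by
      rw [← ContinuousLinearMap.star_eq_adjoint, h1]
    have h6 := ContinuousLinearMap.adjoint_inner_left p (w : K) x
    rw [h5, h4] at h6
    exact h6.symm
  rw [h3]

theorem cmp_coe (h1 : star p = p) (h2 : p * p = p) (T : K →L[ℂ] K) (x : rg p) :
    ((cmp p T x : rg p) : K) = p (T x) := adj_sub h1 h2 _

theorem cmp_add (S T : K →L[ℂ] K) : cmp p (S + T) = cmp p S + cmp p T := by
  unfold cmp
  ext x
  simp

theorem cmp_sub (S T : K →L[ℂ] K) : cmp p (S - T) = cmp p S - cmp p T := by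
  unfold cmp
  ext x
  simp

theorem cmp_smul (c : ℂ) (T : K →L[ℂ] K) : cmp p (c • T) = c • cmp p T := by
  unfold cmp
  ext x
  simp

theorem cmp_star (T : K →L[ℂ] K) : cmp p (star T) = star (cmp p T) := by
  unfold cmp
  rw [ContinuousLinearMap.star_eq_adjoint, ContinuousLinearMap.star_eq_adjoint,
    ContinuousLinearMap.adjoint_comp, ContinuousLinearMap.adjoint_comp,
    ContinuousLinearMap.adjoint_adjoint]
  rfl

theorem norm_cmp_le (T : K →L[ℂ] K) : ‖cmp p T‖ ≤ ‖T‖ := by
  have h1 : ‖(rg p).subtypeL‖ ≤ 1 := Submodule.norm_subtypeL_le _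
  have h2 : ‖ContinuousLinearMap.adjoint (rg p).subtypeL‖ ≤ 1 := by
    rw [LinearIsometryEquiv.norm_map]
    exact h1
  refine ContinuousLinearMap.opNorm_le_bound _ (norm_nonneg _) fun x => ?_
  calc ‖cmp p T x‖ = ‖ContinuousLinearMap.adjoint (rg p).subtypeL (T (x : K))‖ := rfl
    _ ≤ 1 * ‖T (x : K)‖ := ContinuousLinearMap.le_of_opNorm_le _ h2 _
    _ ≤ 1 * (‖T‖ * ‖(x : K)‖) := by
        gcongr
        exact T.le_opNorm _
    _ = ‖T‖ * ‖x‖ := by rw [one_mul]; rfl

theorem cmp_mul (h1 : star p = p) (h2 : p * p = p) (S T : K →L[ℂ] K) :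
    cmp p (S * T) - cmp p S * cmp p T = cmp p (S * ((1 - p) * T)) := by
  ext x
  show ((cmp p (S * T) x : rg p) : K) - ((cmp p S (cmp p T x) : rg p) : K) = _
  rw [cmp_coe h1 h2, cmp_coe h1 h2, cmp_coe h1 h2, cmp_coe h1 h2, ← map_sub]
  congr 1
  show S (T (x : K)) - S (p (T (x : K))) = S (T (x : K) - p (T (x : K)))
  rw [map_sub]

theorem cmp_self (h1 : star p = p) (h2 : p * p = p) : cmp p p = 1 := by
  ext x
  rw [cmp_coe h1 h2]
  have h4 : p (x : K) = x := mem_rg.1 x.2
  rw [h4, h4]
  rfl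

theorem rg_nontrivial (h2 : p * p = p) (hp : p ≠ 0) : Nontrivial (rg p) := by
  obtain ⟨x, hx⟩ : ∃ x, p x ≠ 0 := by
    by_contra h
    push Not at h
    exact hp (ContinuousLinearMap.ext h)
  refine ⟨⟨⟨p x, mem_rg.2 ?_⟩, 0, fun h => hx ?_⟩⟩
  · show (p * p) x = p x
    rw [h2]
  · exact congrArg Subtype.val h

end corner

end Vale.Agent.P083X
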