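import Vale.Agent.P083.Bdl.B1

/-!
# P083 / H731 : low-energy vectors for asymptotic homomorphisms into a SEQUENCE of operator algebras

`LiftsSeq0 A B ω φ` : the maps `φ n : A → B n` form a lift of a *-homomorphism (not nec. unital) from `A`
into the norm ultraproduct of the algebras `B n`.
-/

set_option autoImplicit false
set_option linter.all false

open Filter Topology
open scoped ENNReal InnerProductSpace ComplexConjugate

namespace Vale.Agent.P083X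

open Vale.Agent.P083 Vale.Agent.P083N

/-- lift of a *-homomorphism into the norm ultraproduct of the sequence `B` -/
structure LiftsSeq0 (A : Type) [CStarAlgebra A] (B : ℕ → Type) [∀ n, CStarAlgebra (B n)]
    (ω : Ultrafilter ℕ) (φ : ∀ n, A → B n) : Prop where
  bdd : ∀ a, ∃ C : ℝ, ∀ n, ‖φ n a‖ ≤ C
  add : ∀ a b, Tendsto (fun n => ‖φ n (a + b) - (φ n a + φ n b)‖) ω (𝓝 0)
  mul : ∀ a b, Tendsto (fun n => ‖φ n (a * b) - φ n a * φ n b‖) ω (𝓝 0)
  smul : ∀ (c : ℂ) (a : A), Tendsto (fun n => ‖φ n (c • a) - c • φ n a‖) ω (𝓝 0)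
  star : ∀ a, Tendsto (fun n => ‖φ n (star a) - star (φ n a)‖) ω (𝓝 0)

section basis

variable {κ ι : Type} {K : Type} [NormedAddCommGroup K] [InnerProductSpace ℂ K] [CompleteSpace K]

/-- Hilbert basis of `l²(κ, K)` indexed by `κ × ι` -/
theorem exists_basis (b : HilbertBasis ι ℂ K) :
    Nonempty (HilbertBasis (κ × ι) ℂ (P083N.L2 κ K)) := by
  classical
  have hv : Orthonormal ℂ (fun x : κ × ι => (opSg x.1 (b x.2) : P083N.L2 κ K)) := by
    rw [orthonormal_iff_ite]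
    rintro ⟨l, i⟩ ⟨l', i'⟩
    rw [inner_opSg]
    have h := orthonormal_iff_ite.1 b.orthonormal i i'
    by_cases h1 : l = l'
    · subst h1
      rw [if_pos rfl, h]
      by_cases h2 : i = i'
      · simp [h2]
      · simp [h2]
    · rw [if_neg h1, if_neg (fun h => h1 (Prod.ext_iff.1 h).1)]
  refine ⟨HilbertBasis.mkOfOrthogonalEqBot hv ?_⟩
  rw [Submodule.eq_bot_iff]
  intro f hf
  have h1 : ∀ l i, ⟪b i, f l⟫_ℂ = 0 := by
    intro l i
    rw [← inner_opSg_left]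
    exact (Submodule.mem_orthogonal _ _).1 hf _ (Submodule.subset_span ⟨(l, i), rfl⟩)
  ext l
  have h2 : b.repr (f l) = 0 := by
    ext i
    rw [b.repr_apply_apply, h1]
    rfl
  exact (b.repr.map_eq_zero_iff).1 h2

/-- one component of a low-energy vector -/
theorem exists_component {W : Type} [Fintype W] {n : Type} [Fintype n]
    (u : n → K →L[ℂ] K) (σ : n → W → W) (c : n → W → ℂ) (ζ : W → P083N.L2 κ K)
    (hζ : ∑ w, ‖ζ w‖ ^ 2 = 1) {ε : ℝ}
    (hinv : ∀ i, ∑ w, ‖c i w • diag κ K (u i) (ζ w) - ζ (σ i w)‖ ^ 2 ≤ ε) :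
    ∃ y : W → K, ∑ w, ‖y w‖ ^ 2 = 1 ∧
      ∀ i, ∑ w, ‖c i w • u i (y w) - y (σ i w)‖ ^ 2 ≤ Fintype.card n * ε := by
  have hsum1 : HasSum (fun l => ∑ w, ‖ζ w l‖ ^ 2) (∑ w, ‖ζ w‖ ^ 2) :=
    hasSum_sum fun w _ => P083.L2.hasSum_sq (ζ w)
  rw [hζ] at hsum1
  have hsum2 : HasSum (fun l => ∑ i, ∑ w, ‖c i w • u i (ζ w l) - ζ (σ i w) l‖ ^ 2)
      (∑ i, ∑ w, ‖c i w • diag κ K (u i) (ζ w) - ζ (σ i w)‖ ^ 2) :=
    hasSum_sum fun i _ => hasSum_sum fun w _ =>
      P083.L2.hasSum_sq (c i w • diag κ K (u i) (ζ w) - ζ (σ i w))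
  set C : ℝ := Fintype.card n * ε with hC
  have hC2 : ∑ i, ∑ w, ‖c i w • diag κ K (u i) (ζ w) - ζ (σ i w)‖ ^ 2 ≤ C := by
    refine (Finset.sum_le_sum fun i _ => hinv i).trans ?_
    rw [Finset.sum_const, Finset.card_univ, nsmul_eq_mul]
  obtain ⟨l, hl0, hl⟩ : ∃ l, ∑ w, ‖ζ w l‖ ^ 2 ≠ 0 ∧
      ∑ i, ∑ w, ‖c i w • u i (ζ w l) - ζ (σ i w) l‖ ^ 2 ≤ C * ∑ w, ‖ζ w l‖ ^ 2 := by
    by_contra hcon
    push Not at hcon
    have h3 : ∀ l, C * ∑ w, ‖ζ w l‖ ^ 2 ≤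
        ∑ i, ∑ w, ‖c i w • u i (ζ w l) - ζ (σ i w) l‖ ^ 2 := by
      intro l
      by_cases h0 : ∑ w, ‖ζ w l‖ ^ 2 = 0
      · rw [h0, mul_zero]
        positivity
      · exact (hcon l h0).le
    obtain ⟨l, hl⟩ : ∃ l, ∑ w, ‖ζ w l‖ ^ 2 ≠ 0 := by
      by_contra h0
      push Not at h0
      have h1 := hsum1
      simp only [h0] at h1
      exact zero_ne_one (hasSum_zero.unique h1)
    have h4 := hasSum_lt h3 (hcon l hl) (hsum1.mul_left C) hsum2
    rw [mul_one] at h4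
    exact absurd hC2 (not_le.2 h4)
  set r : ℝ := √(∑ w, ‖ζ w l‖ ^ 2) with hr
  have hpos : 0 < ∑ w, ‖ζ w l‖ ^ 2 :=
    lt_of_le_of_ne (Finset.sum_nonneg fun w _ => by positivity) (Ne.symm hl0)
  have hr0 : 0 < r := Real.sqrt_pos.2 hpos
  have hr2 : r ^ 2 = ∑ w, ‖ζ w l‖ ^ 2 := Real.sq_sqrt hpos.le
  refine ⟨fun w => ((r⁻¹ : ℝ) : ℂ) • ζ w l, ?_, fun i => ?_⟩
  · have : ∀ w, ‖((r⁻¹ : ℝ) : ℂ) • ζ w l‖ ^ 2 = (r ^ 2)⁻¹ * ‖ζ w l‖ ^ 2 := by
      intro w
      rw [norm_smul, Complex.norm_real, Real.norm_eq_abs, abs_of_pos (inv_pos.2 hr0), mul_pow,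
        inv_pow]
    rw [Finset.sum_congr rfl fun w _ => this w, ← Finset.mul_sum, ← hr2,
      inv_mul_cancel₀ (pow_pos hr0 2).ne']
  · have : ∀ w, ‖c i w • u i (((r⁻¹ : ℝ) : ℂ) • ζ w l) -
        ((r⁻¹ : ℝ) : ℂ) • ζ (σ i w) l‖ ^ 2 =
        (r ^ 2)⁻¹ * ‖c i w • u i (ζ w l) - ζ (σ i w) l‖ ^ 2 := by
      intro w
      rw [map_smul, smul_comm, ← smul_sub, norm_smul, Complex.norm_real, Real.norm_eq_abs,
        abs_of_pos (inv_pos.2 hr0), mul_pow, inv_pow]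
    rw [Finset.sum_congr rfl fun w _ => this w, ← Finset.mul_sum]
    have h5 : ∑ w, ‖c i w • u i (ζ w l) - ζ (σ i w) l‖ ^ 2 ≤ C * r ^ 2 := by
      rw [hr2]
      refine le_trans ?_ hl
      exact Finset.single_le_sum
        (f := fun i => ∑ w, ‖c i w • u i (ζ w l) - ζ (σ i w) l‖ ^ 2)
        (fun i _ => Finset.sum_nonneg fun w _ => by positivity) (Finset.mem_univ i)
    calc (r ^ 2)⁻¹ * ∑ w, ‖c i w • u i (ζ w l) - ζ (σ i w) l‖ ^ 2
        ≤ (r ^ 2)⁻¹ * (C * r ^ 2) := by gcongr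
      _ = C := by field_simp

end basis

/-- one common Hilbert space `K'`, isomorphic to an amplification of every `K n` -/
theorem exists_common (K : ℕ → Type) [∀ n, NormedAddCommGroup (K n)]
    [∀ n, InnerProductSpace ℂ (K n)] [∀ n, CompleteSpace (K n)] :
    ∃ κ : Type, Nonempty κ ∧ ∀ n, Nontrivial (K n) →
      Nonempty (P083N.L2 κ (K n) ≃ₗᵢ[ℂ] P083N.L2 κ ℂ) := by
  classical
  choose ι b hb using fun n => exists_hilbertBasis ℂ (K n)
  let κ : Type := Option (Σ n, (ι n : Set (K n))) × ℕ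
  refine ⟨κ, ⟨(none, 0)⟩, fun n hn => ?_⟩
  have hι : Nonempty (ι n) := by
    by_contra h
    rw [not_nonempty_iff] at h
    obtain ⟨x, hx⟩ := exists_ne (0 : K n)
    apply hx
    have h2 : (b n).repr x = 0 := by
      ext i
      exact h.elim i
    exact ((b n).repr.map_eq_zero_iff).1 h2
  have hinf : Cardinal.aleph0 ≤ Cardinal.mk κ := Cardinal.aleph0_le_mk κ
  have hle : Cardinal.mk (ι n) ≤ Cardinal.mk κ :=
    Cardinal.mk_le_of_injective (f := fun i : ι n => ((some ⟨n, i⟩, 0) : κ)) (by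
      intro i j hij
      have h1 := (Prod.ext_iff.1 hij).1
      have h2 := Option.some_injective _ h1
      exact eq_of_heq (Sigma.mk.inj_iff.1 h2).2)
  have heq : Cardinal.mk (κ × ι n) = Cardinal.mk κ := by
    rw [Cardinal.mk_prod, Cardinal.lift_id, Cardinal.lift_id]
    exact Cardinal.mul_eq_left hinf hle (Cardinal.mk_ne_zero _)
  obtain ⟨e⟩ := Cardinal.eq.1 heq
  obtain ⟨B⟩ := exists_basis (κ := κ) (b n)
  have hv : Orthonormal ℂ (fun x : κ => B (e.symm x)) := B.orthonormal.comp _ e.symm.injective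
  have hB : ((Submodule.span ℂ (Set.range fun x : κ => B (e.symm x)))ᗮ = ⊥) := by
    rw [Submodule.eq_bot_iff]
    intro f hf
    have h2 : B.repr f = 0 := by
      ext x
      rw [B.repr_apply_apply]
      have h3 := (Submodule.mem_orthogonal _ _).1 hf (B x)
        (Submodule.subset_span ⟨e x, by simp⟩)
      rw [h3]
      rfl
    exact (B.repr.map_eq_zero_iff).1 h2
  exact ⟨(HilbertBasis.mkOfOrthogonalEqBot hv hB).repr⟩

/-- **low-energy vectors at a stage of an asymptotic unital homomorphism into a sequence** -/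
theorem levels_seq {p : ℕ} [Fact p.Prime] (hp : 100 ≤ p) (χ : AddChar (ZMod p) Circle)
    {A : Type} [CStarAlgebra A] {a : Gen → A} {t : ZMod p → A} {s : A} (hA : Rels p χ a t s)
    (K : ℕ → Type) [∀ n, NormedAddCommGroup (K n)] [∀ n, InnerProductSpace ℂ (K n)]
    [∀ n, CompleteSpace (K n)] {ω : Ultrafilter ℕ} {φ : ∀ n, A → (K n →L[ℂ] K n)}
    (hφ : LiftsSeq0 A (fun n => K n →L[ℂ] K n) ω φ)
    (h1 : Tendsto (fun n => ‖φ n 1 - 1‖) ω (𝓝 0)) (hK : ∀ᶠ n in (ω : Filter ℕ), Nontrivial (K n))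
    {δ : ℝ} (hδ : 0 < δ) (hδ1 : δ ≤ 1 / 100) :
    ∀ᶠ n in (ω : Filter ℕ), ∀ j, ∃ ζ : Wd p j → K n, ∑ x, ‖ζ x‖ ^ 2 = 1 ∧
      ∀ g, ∑ x, ‖((χ (-(gl j g).ph x) : Circle) : ℂ) • φ n (a g) (ζ x) -
        ζ ((gl j g).map x)‖ ^ 2 ≤ 600 * δ := by
  classical
  obtain ⟨κ, hκ, hU⟩ := exists_common K
  let K' : Type := P083N.L2 κ ℂ
  haveI : Nontrivial (P083N.L2 κ ℂ) := by
    obtain ⟨l⟩ := hκ
    refine ⟨opSg l (1 : ℂ), 0, fun h => ?_⟩
    have h2 := norm_opSg (J := κ) (K := ℂ) l (1 : ℂ)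
    rw [h] at h2
    simp at h2
  -- the unital homomorphisms into the operators on the common space
  let θ : ∀ n, (K n →L[ℂ] K n) → (P083N.L2 κ ℂ →L[ℂ] P083N.L2 κ ℂ) := fun n T =>
    if h : Nontrivial (K n) then (Classical.choice (hU n h)).conjStarAlgEquiv (diag κ (K n) T)
    else 0
  have hθ : ∀ n, Nontrivial (K n) → ∃ (U : P083N.L2 κ (K n) ≃ₗᵢ[ℂ] P083N.L2 κ ℂ)
      (f : (K n →L[ℂ] K n) →⋆ₐ[ℂ] (P083N.L2 κ ℂ →L[ℂ] P083N.L2 κ ℂ)),
      (∀ T, θ n T = f T) ∧ ∀ T x, f T x = U (diag κ (K n) T (U.symm x)) := by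
    intro n h
    refine ⟨Classical.choice (hU n h),
      ((Classical.choice (hU n h)).conjStarAlgEquiv :
        (P083N.L2 κ (K n) →L[ℂ] P083N.L2 κ (K n)) →⋆ₐ[ℂ] _).comp (diag κ (K n)), ?_, ?_⟩
    · intro T
      simp only [θ, dif_pos h]
      rfl
    · intro T x
      rfl
  have hle : ∀ n (f : (K n →L[ℂ] K n) →⋆ₐ[ℂ] (P083N.L2 κ ℂ →L[ℂ] P083N.L2 κ ℂ)) T, ‖f T‖ ≤ ‖T‖ :=
    fun n f T => NonUnitalStarAlgHom.norm_apply_le f T
  have hφ' : LiftsHom A (P083N.L2 κ ℂ →L[ℂ] P083N.L2 κ ℂ) ω fun n x => θ n (φ n x) := by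
    refine ⟨?_, ?_, ?_, ?_, ?_, ?_⟩
    · intro x
      obtain ⟨C, hC⟩ := hφ.bdd x
      refine ⟨C, fun n => ?_⟩
      by_cases h : Nontrivial (K n)
      · obtain ⟨U, f, hf, -⟩ := hθ n h
        rw [hf]
        exact (hle n f _).trans (hC n)
      · have : θ n (φ n x) = 0 := by simp only [θ, dif_neg h]
        rw [this, norm_zero]
        exact (norm_nonneg _).trans (hC n)
    · refine squeeze_zero' (Eventually.of_forall fun _ => norm_nonneg _) ?_ h1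
      filter_upwards [hK] with n h
      obtain ⟨U, f, hf, -⟩ := hθ n h
      rw [hf, ← map_one f, ← map_sub]
      exact hle n f _
    · intro x y
      refine squeeze_zero' (Eventually.of_forall fun _ => norm_nonneg _) ?_ (hφ.add x y)
      filter_upwards [hK] with n h
      obtain ⟨U, f, hf, -⟩ := hθ n h
      rw [hf, hf, hf, ← map_add, ← map_sub]
      exact hle n f _
    · intro x y
      refine squeeze_zero' (Eventually.of_forall fun _ => norm_nonneg _) ?_ (hφ.mul x y)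
      filter_upwards [hK] with n h
      obtain ⟨U, f, hf, -⟩ := hθ n h
      rw [hf, hf, hf, ← map_mul, ← map_sub]
      exact hle n f _
    · intro c x
      refine squeeze_zero' (Eventually.of_forall fun _ => norm_nonneg _) ?_ (hφ.smul c x)
      filter_upwards [hK] with n h
      obtain ⟨U, f, hf, -⟩ := hθ n h
      rw [hf, hf, ← map_smul, ← map_sub]
      exact hle n f _
    · intro x
      refine squeeze_zero' (Eventually.of_forall fun _ => norm_nonneg _) ?_ (hφ.star x)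
      filter_upwards [hK] with n h
      obtain ⟨U, f, hf, -⟩ := hθ n h
      rw [hf, hf, ← map_star, ← map_sub]
      exact hle n f _
  have hgood := eventually_good hp χ hA (StarAlgHom.id ℂ (P083N.L2 κ ℂ →L[ℂ] P083N.L2 κ ℂ)) hφ' hδ
  filter_upwards [hgood, hK] with n hn h j
  obtain ⟨U, f, hf, hf2⟩ := hθ n h
  obtain ⟨ζ, hζ1, hζ2⟩ := exists_levels hδ hδ1 hn j
  obtain ⟨y, hy1, hy2⟩ := exists_component (κ := κ) (fun g => φ n (a g)) (fun g => (gl j g).map)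
    (fun g x => ((χ (-(gl j g).ph x) : Circle) : ℂ)) (fun x => U.symm (ζ x))
    (by simpa using hζ1) (ε := 100 * δ) (fun g => by
      refine le_trans (le_of_eq ?_) (hζ2 g)
      refine Finset.sum_congr rfl fun x _ => ?_
      have e1 : ‖U (((χ (-(gl j g).ph x) : Circle) : ℂ) • diag κ (K n) (φ n (a g)) (U.symm (ζ x)) -
          U.symm (ζ ((gl j g).map x)))‖ = ‖((χ (-(gl j g).ph x) : Circle) : ℂ) •
          diag κ (K n) (φ n (a g)) (U.symm (ζ x)) - U.symm (ζ ((gl j g).map x))‖ :=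
        U.norm_map _
      rw [← e1, map_sub, map_smul, LinearIsometryEquiv.apply_symm_apply, ← hf2, ← hf]
      rfl)
  refine ⟨y, hy1, fun g => (hy2 g).trans (le_of_eq ?_)⟩
  rw [Gen.card]
  push_cast
  ring

end Vale.Agent.P083X
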