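import Vale.Agent.P083.H731.StageSeq
import Vale.Agent.P083.H903.Quot

/-!
# P083 / H731 : the stage theorem in the form of H903
-/

set_option autoImplicit false

namespace Vale.Agent.P083.H731

theorem stStage : H903.StStage := by
  intro p hp h100 χ A _ a t s
  intro hA B _ K _ _ _ π hπ ω φ h1 h2 h3 h4 h5 hne
  obtain ⟨n, -, h⟩ := Vale.Agent.P083X.exists_stage h100 χ hA B K π hπ ⟨h1, h2, h3, h4, h5⟩ hne
  exact ⟨n, h⟩

end Vale.Agent.P083.H731
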