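import Vale.Agent.P083.H731.Corner

/-!
# P083 / H731 : one good stage of a nonzero asymptotic homomorphism into a sequence
-/

set_option autoImplicit false
set_option linter.all false

open Filter Topology
open scoped ENNReal InnerProductSpace ComplexConjugate

namespace Vale.Agent.P083X

open Vale.Agent.P083 Vale.Agent.P083N

/-- composition with *-homomorphisms -/
theorem LiftsSeq0.comp {A : Type} [CStarAlgebra A] {B C : ℕ → Type} [∀ n, CStarAlgebra (B n)]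
    [∀ n, CStarAlgebra (C n)] {ω : Ultrafilter ℕ} {φ : ∀ n, A → B n} (h : LiftsSeq0 A B ω φ)
    (f : ∀ n, B n →⋆ₐ[ℂ] C n) : LiftsSeq0 A C ω fun n a => f n (φ n a) := by
  have hn : ∀ n x, ‖f n x‖ ≤ ‖x‖ := fun n x => NonUnitalStarAlgHom.norm_apply_le (f n) x
  refine ⟨?_, ?_, ?_, ?_, ?_⟩
  · intro a
    obtain ⟨c, hc⟩ := h.bdd a
    exact ⟨c, fun n => (hn _ _).trans (hc n)⟩
  · intro a b
    refine squeeze_zero (fun _ => norm_nonneg _) (fun n => ?_) (h.add a b)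
    rw [← map_add, ← map_sub]
    exact hn _ _
  · intro a b
    refine squeeze_zero (fun _ => norm_nonneg _) (fun n => ?_) (h.mul a b)
    rw [← map_mul, ← map_sub]
    exact hn _ _
  · intro c a
    refine squeeze_zero (fun _ => norm_nonneg _) (fun n => ?_) (h.smul c a)
    rw [← map_smul, ← map_sub]
    exact hn _ _
  · intro a
    refine squeeze_zero (fun _ => norm_nonneg _) (fun n => ?_) (h.star a)
    rw [← map_star, ← map_sub]
    exact hn _ _

section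

variable {A : Type} [CStarAlgebra A] {B : ℕ → Type} [∀ n, CStarAlgebra (B n)]
  {ω : Ultrafilter ℕ} {φ : ∀ n, A → B n}

theorem LiftsSeq0.one_mul (h : LiftsSeq0 A B ω φ) (x : A) :
    Tendsto (fun n => ‖φ n x - φ n 1 * φ n x‖) ω (𝓝 0) := by
  have := h.mul 1 x
  rwa [_root_.one_mul] at this

theorem lifts_star_mul (h : LiftsSeq0 A B ω φ) (x y : A) :
    Tendsto (fun n => ‖star (φ n x) * φ n y - φ n (star x * y)‖) ω (𝓝 0) := by
  obtain ⟨C, hC⟩ := h.bdd y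
  have h1 := h.mul (star x) y
  have h2 := h.star x
  have h3 : Tendsto (fun n => ‖φ n (star x * y) - φ n (star x) * φ n y‖ +
      ‖φ n (star x) - star (φ n x)‖ * C) ω (𝓝 0) := by
    simpa using h1.add (h2.mul_const C)
  refine squeeze_zero (fun _ => norm_nonneg _) (fun n => ?_) h3
  have e : star (φ n x) * φ n y - φ n (star x * y) =
      -(φ n (star x * y) - φ n (star x) * φ n y) - (φ n (star x) - star (φ n x)) * φ n y := by
    noncomm_ring
  rw [e]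
  refine (norm_sub_le _ _).trans ?_
  rw [norm_neg]
  gcongr
  refine (norm_mul_le _ _).trans ?_
  gcongr
  exact hC n

end

/-- projections near the image of the unit, in the operators on `K n` -/
theorem exists_proj {A : Type} [CStarAlgebra A] {K : ℕ → Type} [∀ n, NormedAddCommGroup (K n)]
    [∀ n, InnerProductSpace ℂ (K n)] [∀ n, CompleteSpace (K n)] {ω : Ultrafilter ℕ}
    {ψ : ∀ n, A → (K n →L[ℂ] K n)} (h : LiftsSeq0 A (fun n => K n →L[ℂ] K n) ω ψ) :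
    ∃ P : ∀ n, K n →L[ℂ] K n, (∀ n, star (P n) = P n) ∧ (∀ n, P n * P n = P n) ∧
      Tendsto (fun n => ‖P n - ψ n 1‖) ω (𝓝 0) := by
  classical
  obtain ⟨C, hC⟩ := h.bdd 1
  have hC0 : 0 ≤ C := (norm_nonneg _).trans (hC 0)
  have h1 : Tendsto (fun n => ‖ψ n 1 - star (ψ n 1)‖) ω (𝓝 0) := by
    have := h.star 1
    rwa [star_one] at this
  have h2 : Tendsto (fun n => ‖ψ n 1 - ψ n 1 * ψ n 1‖) ω (𝓝 0) := by
    have := h.mul 1 1
    rwa [mul_one] at this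
  let s : ∀ n, K n →L[ℂ] K n := fun n => ((1 / 2 : ℝ) : ℂ) • (ψ n 1 + star (ψ n 1))
  have hs : ∀ n, IsSelfAdjoint (s n) := by
    intro n
    rw [isSelfAdjoint_iff]
    show star (((1 / 2 : ℝ) : ℂ) • (ψ n 1 + star (ψ n 1))) = _
    rw [star_smul, star_add, star_star, add_comm (star (ψ n 1))]
    congr 1
    exact Complex.conj_ofReal _
  have hse : ∀ n, ‖s n - ψ n 1‖ ≤ ‖ψ n 1 - star (ψ n 1)‖ := by
    intro n
    have e : s n - ψ n 1 = ((1 / 2 : ℝ) : ℂ) • (star (ψ n 1) - ψ n 1) := by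
      show ((1 / 2 : ℝ) : ℂ) • (ψ n 1 + star (ψ n 1)) - ψ n 1 = _
      have h3 : ψ n 1 = ((1 / 2 : ℝ) : ℂ) • (ψ n 1 + ψ n 1) := by
        rw [← two_smul ℂ (ψ n 1), smul_smul]
        norm_num
      conv_lhs => rw [h3]
      conv_lhs => arg 1; rw [← h3]
      rw [← smul_sub]
      congr 1
      abel
    rw [e, norm_smul, Complex.norm_real, norm_sub_rev (star (ψ n 1))]
    have : ‖(1 / 2 : ℝ)‖ ≤ 1 := by norm_num
    exact mul_le_of_le_one_left (norm_nonneg _) this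
  have hsn : ∀ n, ‖s n‖ ≤ C := by
    intro n
    show ‖((1 / 2 : ℝ) : ℂ) • (ψ n 1 + star (ψ n 1))‖ ≤ C
    rw [norm_smul, Complex.norm_real]
    have h3 : ‖ψ n 1 + star (ψ n 1)‖ ≤ C + C :=
      (norm_add_le _ _).trans (add_le_add (hC n) (by rw [norm_star]; exact hC n))
    have h4 : ‖(1 / 2 : ℝ)‖ = 1 / 2 := by norm_num
    rw [h4]
    linarith
  have hss : ∀ n, ‖s n * s n - s n‖ ≤
      (2 * C + 1) * ‖ψ n 1 - star (ψ n 1)‖ + ‖ψ n 1 - ψ n 1 * ψ n 1‖ := by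
    intro n
    have e : s n * s n - s n = s n * (s n - ψ n 1) + (s n - ψ n 1) * ψ n 1 -
        (ψ n 1 - ψ n 1 * ψ n 1) - (s n - ψ n 1) := by
      noncomm_ring
    rw [e]
    have a1 : ‖s n * (s n - ψ n 1)‖ ≤ C * ‖ψ n 1 - star (ψ n 1)‖ :=
      (norm_mul_le _ _).trans (mul_le_mul (hsn n) (hse n) (norm_nonneg _) hC0)
    have a2 : ‖(s n - ψ n 1) * ψ n 1‖ ≤ ‖ψ n 1 - star (ψ n 1)‖ * C :=
      (norm_mul_le _ _).trans (mul_le_mul (hse n) (hC n) (norm_nonneg _) (norm_nonneg _))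
    have a3 := norm_sub_le (s n * (s n - ψ n 1) + (s n - ψ n 1) * ψ n 1 -
        (ψ n 1 - ψ n 1 * ψ n 1)) (s n - ψ n 1)
    have a4 := norm_sub_le (s n * (s n - ψ n 1) + (s n - ψ n 1) * ψ n 1)
        (ψ n 1 - ψ n 1 * ψ n 1)
    have a5 := norm_add_le (s n * (s n - ψ n 1)) ((s n - ψ n 1) * ψ n 1)
    have a6 := hse n
    linarith
  have hlim : Tendsto (fun n => (2 * C + 1) * ‖ψ n 1 - star (ψ n 1)‖ +
      ‖ψ n 1 - ψ n 1 * ψ n 1‖) ω (𝓝 0) := by
    simpa using (h1.const_mul (2 * C + 1)).add h2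
  have hss0 : Tendsto (fun n => ‖s n * s n - s n‖) ω (𝓝 0) :=
    squeeze_zero (fun _ => norm_nonneg _) hss hlim
  have hex : ∀ n, ∃ P : K n →L[ℂ] K n, star P = P ∧ P * P = P ∧
      (‖s n * s n - s n‖ ≤ 1 / 8 → ‖P - s n‖ ≤ 2 * ‖s n * s n - s n‖) := by
    intro n
    by_cases hn : ‖s n * s n - s n‖ ≤ 1 / 8
    · obtain ⟨P, h3, h4, h5⟩ := proj_near (hs n) hn
      exact ⟨P, h3, h4, fun _ => h5⟩
    · exact ⟨0, star_zero _, mul_zero _, fun h => absurd h hn⟩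
  choose P hP1 hP2 hP3 using hex
  refine ⟨P, hP1, hP2, ?_⟩
  have hlim2 : Tendsto (fun n => 2 * ‖s n * s n - s n‖ + ‖ψ n 1 - star (ψ n 1)‖) ω (𝓝 0) := by
    simpa using (hss0.const_mul 2).add h1
  refine squeeze_zero' (Eventually.of_forall fun _ => norm_nonneg _) ?_ hlim2
  filter_upwards [hss0.eventually_le_const (show (0 : ℝ) < 1 / 8 by norm_num)] with n hn
  have e : P n - ψ n 1 = (P n - s n) + (s n - ψ n 1) := by abel
  rw [e]
  exact (norm_add_le _ _).trans (add_le_add (hP3 n hn) (hse n))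

/-- **one good stage** -/
theorem exists_stage {p : ℕ} [Fact p.Prime] (hp : 100 ≤ p) (χ : AddChar (ZMod p) Circle)
    {A : Type} [CStarAlgebra A] {a : Gen → A} {t : ZMod p → A} {s : A} (hA : Rels p χ a t s)
    (B : ℕ → Type) [∀ n, CStarAlgebra (B n)]
    (K : ℕ → Type) [∀ n, NormedAddCommGroup (K n)] [∀ n, InnerProductSpace ℂ (K n)]
    [∀ n, CompleteSpace (K n)] (π : ∀ n, B n →⋆ₐ[ℂ] (K n →L[ℂ] K n))
    (hπ : ∀ n, Function.Injective (π n)) {ω : Ultrafilter ℕ} {φ : ∀ n, A → B n}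
    (hφ : LiftsSeq0 A B ω φ) (hne : ¬ ∀ x, Tendsto (fun n => ‖φ n x‖) ω (𝓝 0)) :
    ∃ n, Nontrivial (K n) ∧ ‖φ n 1‖ ≤ 2 ∧
      (∀ g, ‖star (φ n (a g)) * φ n (a g) - φ n 1‖ ≤ 1 / 10 ^ 24) ∧
      (∀ g, ‖φ n 1 * φ n (a g) - φ n (a g)‖ ≤ 1 / 10 ^ 24) ∧
      ∀ j, ∃ ζ : Wd p j → K n, ∑ x, ‖ζ x‖ ^ 2 = 1 ∧
        ∀ g, ∑ x, ‖((χ (-(gl j g).ph x) : Circle) : ℂ) • π n (φ n (a g)) (ζ x) -
          ζ ((gl j g).map x)‖ ^ 2 ≤ 10 ^ 4 * (1 / 10 ^ 24) := by
  classical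
  set ψ : ∀ n, A → (K n →L[ℂ] K n) := fun n x => π n (φ n x) with hψdef
  have hψ : LiftsSeq0 A (fun n => K n →L[ℂ] K n) ω ψ := hφ.comp π
  have hnorm : ∀ n x, ‖ψ n x‖ = ‖φ n x‖ := fun n x =>
    NonUnitalStarAlgHom.norm_map (π n) (hπ n) (φ n x)
  obtain ⟨P, hP1, hP2, hP3⟩ := exists_proj hψ
  have hPn : ∀ n, ‖P n‖ ≤ 1 := by
    intro n
    have h1 : ‖P n‖ * ‖P n‖ = ‖P n‖ := by
      rw [← CStarRing.norm_star_mul_self (x := P n), hP1, hP2]
    nlinarith [norm_nonneg (P n)]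
  -- the projections are nonzero
  have hP0 : ∀ᶠ n in (ω : Filter ℕ), P n ≠ 0 := by
    by_contra hcon
    have h0 : ∀ᶠ n in (ω : Filter ℕ), P n = 0 := by
      have := Ultrafilter.eventually_not.2 hcon
      filter_upwards [this] with n hn
      exact not_not.1 hn
    apply hne
    intro x
    obtain ⟨C, hC⟩ := hφ.bdd x
    have hlim : Tendsto (fun n => ‖φ n x - φ n 1 * φ n x‖ + ‖P n - ψ n 1‖ * C) ω (𝓝 0) := by
      simpa using (hφ.one_mul x).add (hP3.mul_const C)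
    refine squeeze_zero' (Eventually.of_forall fun _ => norm_nonneg _) ?_ hlim
    filter_upwards [h0] with n hn
    have e : φ n x = (φ n x - φ n 1 * φ n x) + φ n 1 * φ n x := by abel
    have h4 : ‖φ n 1‖ = ‖P n - ψ n 1‖ := by rw [hn, zero_sub, norm_neg, hnorm]
    calc ‖φ n x‖ = ‖(φ n x - φ n 1 * φ n x) + φ n 1 * φ n x‖ := by rw [← e]
      _ ≤ ‖φ n x - φ n 1 * φ n x‖ + ‖φ n 1‖ * ‖φ n x‖ :=
        (norm_add_le _ _).trans (add_le_add le_rfl (norm_mul_le _ _))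
      _ ≤ ‖φ n x - φ n 1 * φ n x‖ + ‖P n - ψ n 1‖ * C := by
        rw [h4]
        gcongr
        exact hC n
  -- almost invariance of the projections
  have hinv : ∀ x, Tendsto (fun n => ‖(1 - P n) * ψ n x‖) ω (𝓝 0) := by
    intro x
    obtain ⟨C, hC⟩ := hφ.bdd x
    have hlim : Tendsto (fun n => ‖ψ n x - ψ n 1 * ψ n x‖ + ‖P n - ψ n 1‖ * C) ω (𝓝 0) := by
      simpa using (hψ.one_mul x).add (hP3.mul_const C)
    refine squeeze_zero (fun _ => norm_nonneg _) (fun n => ?_) hlim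
    have e : (1 - P n) * ψ n x = (ψ n x - ψ n 1 * ψ n x) - (P n - ψ n 1) * ψ n x := by
      noncomm_ring
    rw [e]
    refine (norm_sub_le _ _).trans (add_le_add le_rfl ((norm_mul_le _ _).trans ?_))
    gcongr
    rw [hnorm]
    exact hC n
  -- the compressed maps
  let V : ℕ → Type := fun n => rg (P n)
  have hcmp : LiftsSeq0 A (fun n => (rg (P n)) →L[ℂ] (rg (P n))) ω
      fun n x => cmp (P n) (ψ n x) := by
    refine ⟨?_, ?_, ?_, ?_, ?_⟩
    · intro x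
      obtain ⟨C, hC⟩ := hψ.bdd x
      exact ⟨C, fun n => (norm_cmp_le _).trans (hC n)⟩
    · intro x y
      refine squeeze_zero (fun n => norm_nonneg (E := (rg (P n)) →L[ℂ] (rg (P n))) _) (fun n => ?_) (hψ.add x y)
      rw [← cmp_add, ← cmp_sub]
      exact norm_cmp_le _
    · intro x y
      obtain ⟨C, hC⟩ := hψ.bdd x
      have hlim : Tendsto (fun n => ‖ψ n (x * y) - ψ n x * ψ n y‖ +
          C * ‖(1 - P n) * ψ n y‖) ω (𝓝 0) := by
        simpa using (hψ.mul x y).add ((hinv y).const_mul C)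
      refine squeeze_zero (fun n => norm_nonneg (E := (rg (P n)) →L[ℂ] (rg (P n))) _) (fun n => ?_) hlim
      have e : cmp (P n) (ψ n (x * y)) - cmp (P n) (ψ n x) * cmp (P n) (ψ n y) =
          cmp (P n) (ψ n (x * y) - ψ n x * ψ n y) +
            cmp (P n) (ψ n x * ((1 - P n) * ψ n y)) := by
        rw [← cmp_mul (hP1 n) (hP2 n), cmp_sub]
        abel
      rw [e]
      have e1 := norm_cmp_le (p := P n) (ψ n (x * y) - ψ n x * ψ n y)
      have e2 := norm_cmp_le (p := P n) (ψ n x * ((1 - P n) * ψ n y))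
      have e3 : ‖ψ n x * ((1 - P n) * ψ n y)‖ ≤ C * ‖(1 - P n) * ψ n y‖ :=
        (norm_mul_le _ _).trans (mul_le_mul_of_nonneg_right (hC n) (norm_nonneg _))
      have e4 := norm_add_le (cmp (P n) (ψ n (x * y) - ψ n x * ψ n y))
        (cmp (P n) (ψ n x * ((1 - P n) * ψ n y)))
      exact e4.trans (add_le_add e1 (e2.trans e3))
    · intro c x
      refine squeeze_zero (fun n => norm_nonneg (E := (rg (P n)) →L[ℂ] (rg (P n))) _) (fun n => ?_) (hψ.smul c x)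
      rw [← cmp_smul, ← cmp_sub]
      exact norm_cmp_le _
    · intro x
      refine squeeze_zero (fun n => norm_nonneg (E := (rg (P n)) →L[ℂ] (rg (P n))) _) (fun n => ?_) (hψ.star x)
      rw [← cmp_star, ← cmp_sub]
      exact norm_cmp_le _
  have hone : Tendsto (fun n => ‖cmp (P n) (ψ n 1) - 1‖) ω (𝓝 0) := by
    refine squeeze_zero (fun n => norm_nonneg (E := (rg (P n)) →L[ℂ] (rg (P n))) _) (fun n => ?_) hP3
    rw [← cmp_self (hP1 n) (hP2 n), ← cmp_sub, norm_sub_rev (P n)]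
    exact norm_cmp_le _
  have hlev := levels_seq hp χ hA (fun n => rg (P n)) hcmp hone
    (hP0.mono fun n hn => rg_nontrivial (hP2 n) hn) (δ := 1 / 10 ^ 24) (by positivity)
    (by norm_num)
  have hi : ∀ᶠ n in (ω : Filter ℕ), ∀ g, ‖(1 - P n) * ψ n (a g)‖ ≤ 1 / 10 ^ 12 :=
    eventually_all.2 fun g => (hinv (a g)).eventually_le_const (by positivity)
  have hh1 : ∀ᶠ n in (ω : Filter ℕ), ∀ g,
      ‖star (φ n (a g)) * φ n (a g) - φ n 1‖ ≤ 1 / 10 ^ 24 := by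
    refine eventually_all.2 fun g => ?_
    have h1 := lifts_star_mul hφ (a g) (a g)
    rw [(Unitary.mem_iff.1 (hA.uni g)).1] at h1
    exact h1.eventually_le_const (by positivity)
  have hh2 : ∀ᶠ n in (ω : Filter ℕ), ∀ g,
      ‖φ n 1 * φ n (a g) - φ n (a g)‖ ≤ 1 / 10 ^ 24 := by
    refine eventually_all.2 fun g => ?_
    have h1 : ∀ᶠ n in (ω : Filter ℕ), ‖φ n (a g) - φ n 1 * φ n (a g)‖ ≤ 1 / 10 ^ 24 :=
      (hφ.one_mul (a g)).eventually_le_const (by positivity)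
    filter_upwards [h1] with n hn
    rwa [norm_sub_rev] at hn
  have hh3 : ∀ᶠ n in (ω : Filter ℕ), ‖P n - ψ n 1‖ ≤ 1 := hP3.eventually_le_const one_pos
  obtain ⟨n, h1, h2, h3, h4, h5, h6⟩ :=
    (hlev.and (hi.and (hh1.and (hh2.and (hh3.and hP0))))).exists
  refine ⟨n, ?_, ?_, h3, h4, fun j => ?_⟩
  · by_contra hK
    rw [not_nontrivial_iff_subsingleton] at hK
    exact h6 (ContinuousLinearMap.ext fun x => Subsingleton.elim _ _)
  · rw [← hnorm]
    have e : ψ n 1 = P n - (P n - ψ n 1) := by abel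
    rw [e]
    refine (norm_sub_le _ _).trans ?_
    linarith [hPn n]
  · obtain ⟨ζ, hζ1, hζ2⟩ := h1 j
    refine ⟨fun x => (ζ x : K n), hζ1, fun g => ?_⟩
    have hterm : ∀ x, ‖((χ (-(gl j g).ph x) : Circle) : ℂ) • ψ n (a g) (ζ x : K n) -
        (ζ ((gl j g).map x) : K n)‖ ^ 2 ≤ 2 * ((1 / 10 ^ 12) ^ 2 * ‖ζ x‖ ^ 2) +
        2 * ‖((χ (-(gl j g).ph x) : Circle) : ℂ) • cmp (P n) (ψ n (a g)) (ζ x) -
          ζ ((gl j g).map x)‖ ^ 2 := by
      intro x
      have e1 : ((χ (-(gl j g).ph x) : Circle) : ℂ) • ψ n (a g) (ζ x : K n) -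
          (ζ ((gl j g).map x) : K n) =
          ((χ (-(gl j g).ph x) : Circle) : ℂ) • ((1 - P n) * ψ n (a g)) (ζ x : K n) +
          ((((χ (-(gl j g).ph x) : Circle) : ℂ) • cmp (P n) (ψ n (a g)) (ζ x) -
            ζ ((gl j g).map x) : rg (P n)) : K n) := by
        show _ = ((χ (-(gl j g).ph x) : Circle) : ℂ) •
          (ψ n (a g) (ζ x : K n) - P n (ψ n (a g) (ζ x : K n))) +
          (((χ (-(gl j g).ph x) : Circle) : ℂ) • ((cmp (P n) (ψ n (a g)) (ζ x) : rg (P n)) : K n) -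
            (ζ ((gl j g).map x) : K n))
        rw [cmp_coe (hP1 n) (hP2 n), smul_sub]
        abel
      have e2 : ‖((χ (-(gl j g).ph x) : Circle) : ℂ) •
          ((1 - P n) * ψ n (a g)) (ζ x : K n)‖ ≤ 1 / 10 ^ 12 * ‖ζ x‖ := by
        rw [norm_smul, Circle.norm_coe, one_mul]
        exact ContinuousLinearMap.le_of_opNorm_le _ (h2 g) _
      have e3 := norm_add_le (((χ (-(gl j g).ph x) : Circle) : ℂ) •
          ((1 - P n) * ψ n (a g)) (ζ x : K n))
          ((((χ (-(gl j g).ph x) : Circle) : ℂ) • cmp (P n) (ψ n (a g)) (ζ x) -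
            ζ ((gl j g).map x) : rg (P n)) : K n)
      rw [← e1] at e3
      have e4 : ‖((((χ (-(gl j g).ph x) : Circle) : ℂ) • cmp (P n) (ψ n (a g)) (ζ x) -
            ζ ((gl j g).map x) : rg (P n)) : K n)‖ =
          ‖((χ (-(gl j g).ph x) : Circle) : ℂ) • cmp (P n) (ψ n (a g)) (ζ x) -
            ζ ((gl j g).map x)‖ := rfl
      rw [e4] at e3
      set U := ‖((χ (-(gl j g).ph x) : Circle) : ℂ) • cmp (P n) (ψ n (a g)) (ζ x) -
            ζ ((gl j g).map x)‖ with hU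
      have e5 : ‖((χ (-(gl j g).ph x) : Circle) : ℂ) • ψ n (a g) (ζ x : K n) -
          (ζ ((gl j g).map x) : K n)‖ ≤ 1 / 10 ^ 12 * ‖ζ x‖ + U := e3.trans (by gcongr)
      have e6 := pow_le_pow_left₀ (norm_nonneg _) e5 2
      have e7 : (1 / 10 ^ 12 * ‖ζ x‖) ^ 2 = (1 / 10 ^ 12) ^ 2 * ‖ζ x‖ ^ 2 := by ring
      nlinarith [sq_nonneg (1 / 10 ^ 12 * ‖ζ x‖ - U)]
    refine (Finset.sum_le_sum fun x _ => hterm x).trans ?_
    rw [Finset.sum_add_distrib, ← Finset.mul_sum, ← Finset.mul_sum, ← Finset.mul_sum, hζ1]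
    have := hζ2 g
    norm_num at this ⊢
    linarith

end Vale.Agent.P083X
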